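import Vale.Agent.Lib.P204F.Defs
import Vale.Agent.Lib.P204.MainA
import Vale.Agent.Lib.P204.MainB

/-! # P204: from forms on `V / Λ` to matrix fields and back -/

open scoped ContDiff
open Matrix Module

namespace P204F

variable {V : Type} [NormedAddCommGroup V] [NormedSpace ℝ V]

noncomputable section

/-- coordinates -/
def co (b : Basis (Fin 4) ℝ V) : V ≃L[ℝ] (Fin 4 → ℝ) :=
  haveI := b.finiteDimensional_of_finite
  b.equivFunL

theorem co_apply (b : Basis (Fin 4) ℝ V) (v : V) (i : Fin 4) : co b v i = b.repr v i := by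
  rfl

theorem co_b (b : Basis (Fin 4) ℝ V) (i : Fin 4) : co b (b i) = Pi.single i 1 := by
  funext j
  rw [co_apply, b.repr_self, Finsupp.single_apply, Pi.single_apply]
  simp [eq_comm]

theorem co_symm_single (b : Basis (Fin 4) ℝ V) (i : Fin 4) :
    (co b).symm (Pi.single i (1 : ℝ) : Fin 4 → ℝ) = b i := by
  rw [← co_b b i, ContinuousLinearEquiv.symm_apply_apply]

theorem co_symm (b : Basis (Fin 4) ℝ V) (u : Fin 4 → ℝ) : (co b).symm u = ∑ i, u i • b i := by
  have h : u = ∑ i, u i • (Pi.single i (1 : ℝ) : Fin 4 → ℝ) := by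
    ext j
    simp [Finset.sum_apply, Pi.single_apply]
  conv_lhs => rw [h]
  rw [map_sum]
  simp only [map_smul, co_symm_single]

theorem eq_sum (b : Basis (Fin 4) ℝ V) (u : V) : u = ∑ i, co b u i • b i := by
  rw [← co_symm, ContinuousLinearEquiv.symm_apply_apply]

/-- the matrix field of `J` -/
def mJ (b : Basis (Fin 4) ℝ V) (J : V → V →L[ℝ] V) (y : P204.R4) : Matrix (Fin 4) (Fin 4) ℝ :=
  Matrix.of fun i j => co b (J ((co b).symm y) (b j)) i

/-- the matrix field of `Ω` -/
def mW (b : Basis (Fin 4) ℝ V) (Ω : V → V [⋀^Fin 2]→L[ℝ] ℝ) (y : P204.R4) :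
    Matrix (Fin 4) (Fin 4) ℝ :=
  Matrix.of fun i j => Ω ((co b).symm y) ![b i, b j]

theorem mJ_mulVec (b : Basis (Fin 4) ℝ V) (J : V → V →L[ℝ] V) (y u : P204.R4) :
    mJ b J y *ᵥ u = co b (J ((co b).symm y) ((co b).symm u)) := by
  funext i
  rw [co_symm b u, map_sum, map_sum]
  simp only [Matrix.mulVec, dotProduct, mJ, Matrix.of_apply, map_smul, Finset.sum_apply,
    Pi.smul_apply, smul_eq_mul]
  exact Finset.sum_congr rfl fun j _ => mul_comm _ _

/-- a two-form at a point as a bilinear map -/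
def bil (α : V [⋀^Fin 2]→L[ℝ] ℝ) : V →ₗ[ℝ] V →ₗ[ℝ] ℝ :=
  LinearMap.mk₂ ℝ (fun u v => α ![u, v])
    (fun m₁ m₂ n => by
      have h := α.map_update_add ![0, n] 0 m₁ m₂
      have e : ∀ m : V, Function.update ![0, n] 0 m = ![m, n] := fun m => by
        funext i
        fin_cases i <;> rfl
      rwa [e, e, e] at h)
    (fun c m n => by
      have h := α.map_update_smul ![0, n] 0 c m
      have e : ∀ m : V, Function.update ![0, n] 0 m = ![m, n] := fun m => by
        funext i
        fin_cases i <;> rfl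
      rwa [e, e] at h)
    (fun m n₁ n₂ => by
      have h := α.map_update_add ![m, 0] 1 n₁ n₂
      have e : ∀ n : V, Function.update ![m, 0] 1 n = ![m, n] := fun n => by
        funext i
        fin_cases i <;> rfl
      rwa [e, e, e] at h)
    (fun c m n => by
      have h := α.map_update_smul ![m, 0] 1 c n
      have e : ∀ n : V, Function.update ![m, 0] 1 n = ![m, n] := fun n => by
        funext i
        fin_cases i <;> rfl
      rwa [e, e] at h)

theorem bil_apply (α : V [⋀^Fin 2]→L[ℝ] ℝ) (u v : V) : bil α u v = α ![u, v] := rfl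

theorem swap (α : V [⋀^Fin 2]→L[ℝ] ℝ) (u v : V) : α ![v, u] = -α ![u, v] := by
  have h := α.map_swap ![u, v] (show (0 : Fin 2) ≠ 1 by decide)
  have e : ![u, v] ∘ Equiv.swap (0 : Fin 2) 1 = ![v, u] := by
    funext i
    fin_cases i <;> rfl
  rwa [e] at h

theorem eval_eq (b : Basis (Fin 4) ℝ V) (Ω : V → V [⋀^Fin 2]→L[ℝ] ℝ) (y : P204.R4) (u v : V) :
    Ω ((co b).symm y) ![u, v] = co b u ⬝ᵥ (mW b Ω y *ᵥ co b v) := by
  conv_lhs => rw [eq_sum b u, eq_sum b v]
  rw [← bil_apply, map_sum (bil (Ω ((co b).symm y))), LinearMap.sum_apply]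
  simp only [dotProduct, Matrix.mulVec, mW, Matrix.of_apply]
  refine Finset.sum_congr rfl fun i _ => ?_
  rw [map_smul, LinearMap.smul_apply, map_sum, smul_eq_mul]
  congr 1
  refine Finset.sum_congr rfl fun j _ => ?_
  rw [map_smul, smul_eq_mul, bil_apply, mul_comm]

/-- periodicity under the lattice -/
theorem per_of_gen {α : Type} {b : Basis (Fin 4) ℝ V} {F : V → α} (h : Periodic b F)
    (y : P204.R4) (n : Fin 4 → ℤ) :
    F ((co b).symm (y + fun i => (n i : ℝ))) = F ((co b).symm y) := by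
  have h1 : ∀ (i : Fin 4) (m : ℤ) (x : V), F (x + (m : ℝ) • b i) = F x := by
    intro i m
    induction m using Int.induction_on with
    | zero => intro x; simp
    | succ k ih =>
      intro x
      rw [← ih x, ← h i (x + ((k : ℤ) : ℝ) • b i)]
      congr 1
      push_cast
      module
    | pred k ih =>
      intro x
      rw [← ih x, ← h i (x + (((-(k : ℤ) - 1 : ℤ)) : ℝ) • b i)]
      congr 1
      push_cast
      module
  have h2 : (co b).symm (y + fun i => (n i : ℝ)) =
      (co b).symm y + (n 0 : ℝ) • b 0 + (n 1 : ℝ) • b 1 + (n 2 : ℝ) • b 2 + (n 3 : ℝ) • b 3 := by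
    rw [map_add, co_symm b (fun i => (n i : ℝ)), Fin.sum_univ_four]
    module
  rw [h2, h1, h1, h1, h1]

/-- exterior derivative of a two-form on three vectors -/
theorem extDeriv_three {Ω : V → V [⋀^Fin 2]→L[ℝ] ℝ} {x : V} (h : DifferentiableAt ℝ Ω x)
    (v : Fin 3 → V) :
    extDeriv Ω x v = fderiv ℝ (fun y => Ω y ![v 1, v 2]) x (v 0) -
      fderiv ℝ (fun y => Ω y ![v 0, v 2]) x (v 1) +
      fderiv ℝ (fun y => Ω y ![v 0, v 1]) x (v 2) := by
  have e0 : (0 : Fin 3).removeNth v = ![v 1, v 2] := by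
    funext i
    fin_cases i <;> rfl
  have e1 : (1 : Fin 3).removeNth v = ![v 0, v 2] := by
    funext i
    fin_cases i <;> rfl
  have e2 : (2 : Fin 3).removeNth v = ![v 0, v 1] := by
    funext i
    fin_cases i <;> rfl
  rw [extDeriv_apply h, Fin.sum_univ_three, e0, e1, e2]
  simp
  ring

theorem smooth_co (b : Basis (Fin 4) ℝ V) : ContDiff ℝ ∞ fun x => co b x := (co b).contDiff

theorem smooth_co_symm (b : Basis (Fin 4) ℝ V) : ContDiff ℝ ∞ fun y => (co b).symm y :=
  (co b).symm.contDiff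

theorem mJ_acs {b : Basis (Fin 4) ℝ V} {J : V → V →L[ℝ] V} (hJ : AlmostComplex b J) :
    P204.IsACS (mJ b J) := by
  refine ⟨⟨fun i j => ?_, fun y n => ?_⟩, fun y => ?_⟩
  · have h1 : ContDiff ℝ ∞ fun y => J ((co b).symm y) (b j) :=
      (hJ.smooth.comp (smooth_co_symm b)).clm_apply contDiff_const
    exact contDiff_pi.1 ((smooth_co b).comp h1) i
  · ext i j
    simp only [mJ, Matrix.of_apply]
    rw [per_of_gen hJ.periodic y n]
  · have h : ∀ u, (mJ b J y * mJ b J y) *ᵥ u = (-1 : Matrix (Fin 4) (Fin 4) ℝ) *ᵥ u := by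
      intro u
      rw [← Matrix.mulVec_mulVec, mJ_mulVec, mJ_mulVec, ContinuousLinearEquiv.symm_apply_apply,
        hJ.square, map_neg, ContinuousLinearEquiv.apply_symm_apply, Matrix.neg_mulVec,
        Matrix.one_mulVec]
    ext i j
    have h1 := congrFun (h (Pi.single j 1)) i
    rwa [Matrix.mulVec_single_one, Matrix.mulVec_single_one] at h1

theorem diff_co {b : Basis (Fin 4) ℝ V} (g : V → ℝ) (i : Fin 4) (y : P204.R4) :
    P204.D i (fun z => g ((co b).symm z)) y = fderiv ℝ g ((co b).symm y) (b i) := by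
  have h := (co b).symm.comp_right_fderiv (f := g) (x := y)
  unfold P204.D
  show (fderiv ℝ (g ∘ (co b).symm) y) (Pi.single i 1) = _
  rw [h]
  show fderiv ℝ g ((co b).symm y) ((co b).symm (Pi.single i (1 : ℝ) : Fin 4 → ℝ)) = _
  rw [co_symm_single]

theorem smooth_apply {Ω : V → V [⋀^Fin 2]→L[ℝ] ℝ} (hs : ContDiff ℝ ∞ Ω) (m : Fin 2 → V) :
    ContDiff ℝ ∞ fun x => Ω x m :=
  (ContinuousAlternatingMap.apply ℝ V ℝ m).contDiff.comp hs

theorem mW_symplectic {b : Basis (Fin 4) ℝ V} {Ω : V → V [⋀^Fin 2]→L[ℝ] ℝ}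
    (hO : SymplecticForm b Ω) : P204.Symplectic (mW b Ω) := by
  refine ⟨⟨fun i j => ?_, fun y n => ?_⟩, fun y => ?_, fun y i j k => ?_, fun y hdet => ?_⟩
  · exact (smooth_apply hO.smooth ![b i, b j]).comp (smooth_co_symm b)
  · ext i j
    simp only [mW, Matrix.of_apply]
    rw [per_of_gen hO.periodic y n]
  · ext i j
    simp only [mW, Matrix.of_apply, Matrix.transpose_apply, Matrix.neg_apply]
    exact swap _ _ _
  · have hd : DifferentiableAt ℝ Ω ((co b).symm y) := (hO.smooth.differentiable (by simp)) _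
    have h := extDeriv_three hd ![b i, b j, b k]
    rw [hO.closed] at h
    have e1 : P204.D i (fun z => mW b Ω z j k) y =
        fderiv ℝ (fun x => Ω x ![b j, b k]) ((co b).symm y) (b i) :=
      diff_co (fun x => Ω x ![b j, b k]) i y
    have e2 : P204.D j (fun z => mW b Ω z i k) y =
        fderiv ℝ (fun x => Ω x ![b i, b k]) ((co b).symm y) (b j) :=
      diff_co (fun x => Ω x ![b i, b k]) j y
    have e3 : P204.D k (fun z => mW b Ω z i j) y =
        fderiv ℝ (fun x => Ω x ![b i, b j]) ((co b).symm y) (b k) :=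
      diff_co (fun x => Ω x ![b i, b j]) k y
    have e4 : (fun z => mW b Ω z k i) = fun z => -mW b Ω z i k := by
      funext z
      exact swap _ _ _
    have hsm : P204.S fun z => mW b Ω z i k :=
      (smooth_apply hO.smooth ![b i, b k]).comp (smooth_co_symm b)
    rw [e4, P204.D_neg hsm, e1, e2, e3]
    have h' : (0 : ℝ) = fderiv ℝ (fun x => Ω x ![b j, b k]) ((co b).symm y) (b i) -
      fderiv ℝ (fun x => Ω x ![b i, b k]) ((co b).symm y) (b j) +
      fderiv ℝ (fun x => Ω x ![b i, b j]) ((co b).symm y) (b k) := h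
    linarith
  · obtain ⟨v, hv, hv0⟩ := Matrix.exists_vecMul_eq_zero_iff.2 hdet
    apply hv
    have h1 := hO.nondegenerate ((co b).symm y) ((co b).symm v) (fun w => by
      rw [eval_eq b, ContinuousLinearEquiv.apply_symm_apply, Matrix.dotProduct_mulVec, hv0,
        zero_dotProduct])
    simpa using h1

theorem mW_tames {b : Basis (Fin 4) ℝ V} {Ω : V → V [⋀^Fin 2]→L[ℝ] ℝ} {J : V → V →L[ℝ] V}
    (h : Tames Ω J) : P204.Tames (mW b Ω) (mJ b J) := by
  intro y v hv
  have h1 := h ((co b).symm y) ((co b).symm v) (by simpa using hv)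
  rw [eval_eq b] at h1
  rw [mJ_mulVec]
  simpa using h1

/-- the product of two functionals -/
def wedge (f g : V →L[ℝ] ℝ) : V [⋀^Fin 2]→L[ℝ] ℝ where
  toFun m := f (m 0) * g (m 1) - f (m 1) * g (m 0)
  map_update_add' m i x y := by
    fin_cases i <;> simp [Function.update] <;> ring
  map_update_smul' m i c x := by
    fin_cases i <;> simp [Function.update] <;> ring
  map_eq_zero_of_eq' m i j h hij := by
    have : m 0 = m 1 := by
      fin_cases i <;> fin_cases j <;> simp_all
    rw [this]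
    ring
  cont := by fun_prop

theorem wedge_apply (f g : V →L[ℝ] ℝ) (u v : V) : wedge f g ![u, v] = f u * g v - f v * g u := rfl

/-- coordinate functional -/
def cf (b : Basis (Fin 4) ℝ V) (i : Fin 4) : V →L[ℝ] ℝ :=
  (ContinuousLinearMap.proj i).comp (co b : V →L[ℝ] (Fin 4 → ℝ))

theorem cf_apply (b : Basis (Fin 4) ℝ V) (i : Fin 4) (v : V) : cf b i v = co b v i := rfl

/-- the two-form of a matrix field -/
def form (b : Basis (Fin 4) ℝ V) (W : P204.R4 → Matrix (Fin 4) (Fin 4) ℝ) (x : V) :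
    V [⋀^Fin 2]→L[ℝ] ℝ :=
  ∑ i, ∑ j, (W (co b x) i j / 2) • wedge (cf b i) (cf b j)

theorem form_apply {b : Basis (Fin 4) ℝ V} {W : P204.R4 → Matrix (Fin 4) (Fin 4) ℝ}
    (hW : ∀ x, (W x)ᵀ = -W x) (x u v : V) :
    form b W x ![u, v] = co b u ⬝ᵥ (W (co b x) *ᵥ co b v) := by
  have hs : ∀ i j, W (co b x) j i = -W (co b x) i j := fun i j => by
    have h := congrFun (congrFun (hW (co b x)) i) j
    rwa [Matrix.transpose_apply, Matrix.neg_apply] at h
  have h1 : form b W x ![u, v] = ∑ i, ∑ j, (W (co b x) i j / 2) *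
      (co b u i * co b v j - co b v i * co b u j) := by
    simp only [form, ContinuousAlternatingMap.sum_apply, ContinuousAlternatingMap.smul_apply,
      wedge_apply, cf_apply, smul_eq_mul]
  have h2 : ∑ i, ∑ j, (W (co b x) i j / 2) * (co b v i * co b u j) =
      -∑ i, ∑ j, (W (co b x) i j / 2) * (co b u i * co b v j) := by
    rw [Finset.sum_comm, ← Finset.sum_neg_distrib]
    refine Finset.sum_congr rfl fun i _ => ?_
    rw [← Finset.sum_neg_distrib]
    refine Finset.sum_congr rfl fun j _ => ?_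
    rw [hs i j]
    ring
  simp only [mul_sub, Finset.sum_sub_distrib] at h1
  rw [h1, h2, sub_neg_eq_add]
  simp only [dotProduct, Matrix.mulVec, Finset.mul_sum]
  rw [← Finset.sum_add_distrib]
  refine Finset.sum_congr rfl fun i _ => ?_
  rw [← Finset.sum_add_distrib]
  refine Finset.sum_congr rfl fun j _ => ?_
  ring

theorem form_smooth {b : Basis (Fin 4) ℝ V} {W : P204.R4 → Matrix (Fin 4) (Fin 4) ℝ}
    (hW : ∀ i j, ContDiff ℝ ∞ fun x => W x i j) : ContDiff ℝ ∞ (form b W) := by
  unfold form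
  refine ContDiff.sum fun i _ => ContDiff.sum fun j _ => ?_
  exact ContDiff.smul (((hW i j).comp (smooth_co b)).div_const 2) contDiff_const

theorem form_basis {b : Basis (Fin 4) ℝ V} {W : P204.R4 → Matrix (Fin 4) (Fin 4) ℝ}
    (hW : ∀ x, (W x)ᵀ = -W x) (x : V) (i j : Fin 4) :
    form b W x ![b i, b j] = W (co b x) i j := by
  rw [form_apply hW, co_b, co_b, Matrix.mulVec_single_one, single_one_dotProduct]
  rfl

theorem form_symplectic {b : Basis (Fin 4) ℝ V} {W : P204.R4 → Matrix (Fin 4) (Fin 4) ℝ}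
    (hW : P204.Symplectic W) : SymplecticForm b (form b W) where
  smooth := form_smooth hW.1.1
  periodic i x := by
    have h : W (co b (x + b i)) = W (co b x) := by
      rw [map_add, co_b]
      exact P204.per_e hW.1.2 i (co b x)
    unfold form
    rw [h]
  closed x := by
    have hd : DifferentiableAt ℝ (form b W) x :=
      ((form_smooth hW.1.1).differentiable (by simp)) x
    apply ContinuousAlternatingMap.toAlternatingMap_injective
    refine Basis.ext_alternating b fun s _ => ?_
    show extDeriv (form b W) x (fun i => b (s i)) = 0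
    rw [extDeriv_three hd]
    have key : ∀ i j k : Fin 4, fderiv ℝ (fun y => form b W y ![b j, b k]) x (b i) =
        P204.D i (fun z => W z j k) (co b x) := by
      intro i j k
      have h1 : (fun z => W z j k) = fun z => form b W ((co b).symm z) ![b j, b k] := by
        funext z
        rw [form_basis hW.2.1, ContinuousLinearEquiv.apply_symm_apply]
      rw [h1, diff_co (fun x => form b W x ![b j, b k]) i, ContinuousLinearEquiv.symm_apply_apply]
    rw [key, key, key]
    have h := hW.2.2.1 (co b x) (s 0) (s 1) (s 2)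
    have e4 : (fun z => W z (s 2) (s 0)) = fun z => -W z (s 0) (s 2) := by
      funext z
      have h := congrFun (congrFun (hW.2.1 z) (s 0)) (s 2)
      rwa [Matrix.transpose_apply, Matrix.neg_apply] at h
    rw [e4, P204.D_neg (hW.1.1 _ _)] at h
    linarith
  nondegenerate x u hu := by
    have h1 : co b u ᵥ* W (co b x) = 0 := by
      funext j
      have h2 := hu (b j)
      rw [form_apply hW.2.1, Matrix.dotProduct_mulVec, co_b, dotProduct_single_one] at h2
      exact h2
    have h3 := Matrix.eq_zero_of_vecMul_eq_zero (hW.2.2.2 (co b x)) h1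
    simpa using h3

theorem form_tames {b : Basis (Fin 4) ℝ V} {W : P204.R4 → Matrix (Fin 4) (Fin 4) ℝ}
    {J : V → V →L[ℝ] V} (hW : ∀ x, (W x)ᵀ = -W x) (h : P204.Tames W (mJ b J)) :
    Tames (form b W) J := by
  intro x v hv
  have h1 := h (co b x) (co b v) (by simpa using hv)
  rw [mJ_mulVec] at h1
  rw [form_apply hW]
  simpa using h1

theorem form_compatible {b : Basis (Fin 4) ℝ V} {W : P204.R4 → Matrix (Fin 4) (Fin 4) ℝ}
    {J : V → V →L[ℝ] V} (hW : ∀ x, (W x)ᵀ = -W x) (h : P204.Compatible W (mJ b J)) :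
    Compatible (form b W) J := by
  refine ⟨form_tames hW h.1, fun x u v => ?_⟩
  have h1 := h.2 (co b x) (co b u) (co b v)
  rw [mJ_mulVec, mJ_mulVec] at h1
  rw [form_apply hW, form_apply hW]
  simpa using h1

end

end P204F
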