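import Mathlib

/-!
# P204: almost complex structures and symplectic forms on a four-torus `V / Λ`

`V` is a real vector space with basis `b : Basis (Fin 4) ℝ V`, and `Λ` is the lattice spanned by `b`.
Tensor fields on the torus `V / Λ` are the `Λ`-periodic tensor fields on `V`; differential forms and
their exterior derivative `extDeriv` are those of Mathlib.
-/

open scoped ContDiff

namespace P204F

variable {V : Type} [NormedAddCommGroup V] [NormedSpace ℝ V]

/-- the field `F` on `V` descends to the torus `V / Λ` -/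
def Periodic {α : Type} (b : Module.Basis (Fin 4) ℝ V) (F : V → α) : Prop :=
  ∀ (i : Fin 4) (x : V), F (x + b i) = F x

/-- `J` is a smooth almost complex structure on the torus `V / Λ` -/
structure AlmostComplex (b : Module.Basis (Fin 4) ℝ V) (J : V → V →L[ℝ] V) : Prop where
  smooth : ContDiff ℝ ∞ J
  periodic : Periodic b J
  square : ∀ x v, J x (J x v) = -v

/-- `Ω` is a symplectic form on the torus `V / Λ`: smooth, closed and nondegenerate -/
structure SymplecticForm (b : Module.Basis (Fin 4) ℝ V) (Ω : V → V [⋀^Fin 2]→L[ℝ] ℝ) : Prop where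
  smooth : ContDiff ℝ ∞ Ω
  periodic : Periodic b Ω
  closed : ∀ x, extDeriv Ω x = 0
  nondegenerate : ∀ x u, (∀ v, Ω x ![u, v] = 0) → u = 0

/-- `Ω` tames `J` -/
def Tames (Ω : V → V [⋀^Fin 2]→L[ℝ] ℝ) (J : V → V →L[ℝ] V) : Prop :=
  ∀ x v, v ≠ 0 → 0 < Ω x ![v, J x v]

/-- `Ω` is compatible with `J` -/
def Compatible (Ω : V → V [⋀^Fin 2]→L[ℝ] ℝ) (J : V → V →L[ℝ] V) : Prop :=
  Tames Ω J ∧ ∀ x u v, Ω x ![J x u, J x v] = Ω x ![u, v]

end P204F
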